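import Vale.Agent.P093U41.Defs
import Vale.Agent.P093Z.Trace

/-!
# P093: comparison in `M_∞(A)`
-/

set_option linter.all false

open Filter Topology Vale.Agent.P093
open scoped ENNReal Matrix

namespace Vale.Agent.P093U

section Inc

variable {A : Type*} [CStarAlgebra A] {n m q : ℕ}

/-- the inclusion matrix -/
noncomputable def inc (A : Type*) [CStarAlgebra A] (n q : ℕ) : Matrix (Fin n) (Fin q) A :=
  Matrix.of fun i j => if i.1 = j.1 then 1 else 0

theorem inc_mul (hn : n ≤ q) {κ : Type*} (M : Matrix (Fin q) κ A) (i : Fin n) (j : κ) :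
    (inc A n q * M) i j = M (i.castLE hn) j := by
  rw [Matrix.mul_apply, Finset.sum_eq_single (i.castLE hn)]
  · simp [inc]
  · intro k _ hk
    have : ¬ i.1 = k.1 := fun e => hk (Fin.ext e.symm)
    simp [inc, this]
  · simp

theorem mul_incH (hn : n ≤ q) {κ : Type*} (M : Matrix κ (Fin q) A) (i : κ) (j : Fin n) :
    (M * (inc A n q)ᴴ) i j = M i (j.castLE hn) := by
  rw [Matrix.mul_apply, Finset.sum_eq_single (j.castLE hn)]
  · simp [inc]
  · intro k _ hk
    have : ¬ j.1 = k.1 := fun e => hk (Fin.ext e.symm)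
    simp [inc, this]
  · simp

theorem inc_incH (hn : n ≤ q) : inc A n q * (inc A n q)ᴴ = 1 := by
  ext i j
  rw [mul_incH hn, Matrix.one_apply]
  simp [inc, Fin.ext_iff]

theorem incH_mul {κ : Type*} (M : Matrix (Fin n) κ A) (i : Fin q) (j : κ) :
    ((inc A n q)ᴴ * M) i j = if c : i.1 < n then M ⟨i.1, c⟩ j else 0 := by
  rw [Matrix.mul_apply]
  split_ifs with c
  · rw [Finset.sum_eq_single ⟨i.1, c⟩]
    · simp [inc]
    · intro k _ hk
      have : ¬ k.1 = i.1 := fun e => hk (Fin.ext e)
      simp [inc, this]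
    · simp
  · refine Finset.sum_eq_zero fun k _ => ?_
    have : ¬ k.1 = i.1 := fun e => c (e ▸ k.2)
    simp [inc, this]

theorem mul_inc {κ : Type*} (M : Matrix κ (Fin n) A) (i : κ) (j : Fin q) :
    (M * inc A n q) i j = if c : j.1 < n then M i ⟨j.1, c⟩ else 0 := by
  rw [Matrix.mul_apply]
  split_ifs with c
  · rw [Finset.sum_eq_single ⟨j.1, c⟩]
    · simp [inc]
    · intro k _ hk
      have : ¬ k.1 = j.1 := fun e => hk (Fin.ext e)
      simp [inc, this]
    · simp
  · refine Finset.sum_eq_zero fun k _ => ?_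
    have : ¬ k.1 = j.1 := fun e => c (e ▸ k.2)
    simp [inc, this]

/-- the corner inclusion for plain matrices -/
noncomputable def cor (q : ℕ) (a : Matrix (Fin n) (Fin n) A) : Matrix (Fin q) (Fin q) A :=
  (inc A n q)ᴴ * a * inc A n q

theorem corner_eq (a : CStarMatrix (Fin n) (Fin n) A) : corner q a = cor q a := by
  ext i j
  change (if c : i.1 < n ∧ j.1 < n then a ⟨i.1, c.1⟩ ⟨j.1, c.2⟩ else 0) =
    ((inc A n q)ᴴ * CStarMatrix.ofMatrix.symm a * inc A n q) i j
  rw [mul_inc]
  by_cases c1 : j.1 < n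
  · rw [dif_pos c1, incH_mul]
    by_cases c2 : i.1 < n
    · rw [dif_pos c2, dif_pos ⟨c2, c1⟩]
      rfl
    · rw [dif_neg c2, dif_neg fun c => c2 c.1]
  · rw [dif_neg c1, dif_neg fun c => c1 c.2]

theorem cor_conj (hm : m ≤ q) (x : Matrix (Fin m) (Fin n) A) (b : Matrix (Fin m) (Fin m) A) :
    ((inc A m q)ᴴ * x * inc A n q)ᴴ * cor q b * ((inc A m q)ᴴ * x * inc A n q) =
      cor q (xᴴ * b * x) := by
  simp only [cor, Matrix.conjTranspose_mul, Matrix.conjTranspose_conjTranspose, Matrix.mul_assoc]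
  simp only [← Matrix.mul_assoc (inc A m q) (inc A m q)ᴴ, inc_incH hm, Matrix.one_mul]

theorem cor_mul (hn : n ≤ q) (a b : Matrix (Fin n) (Fin n) A) :
    cor q (a * b) = cor q a * cor q b := by
  simp only [cor, Matrix.mul_assoc]
  simp only [← Matrix.mul_assoc (inc A n q) (inc A n q)ᴴ, inc_incH hn, Matrix.one_mul]

theorem cor_star (a : Matrix (Fin n) (Fin n) A) : cor q aᴴ = (cor q a)ᴴ := by
  simp only [cor, Matrix.conjTranspose_mul, Matrix.conjTranspose_conjTranspose, Matrix.mul_assoc]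

theorem cut_conj (x : Matrix (Fin q) (Fin q) A) (b : Matrix (Fin m) (Fin m) A) :
    (inc A m q * x * (inc A n q)ᴴ)ᴴ * b * (inc A m q * x * (inc A n q)ᴴ) =
      inc A n q * (xᴴ * cor q b * x) * (inc A n q)ᴴ := by
  simp only [cor, Matrix.conjTranspose_mul, Matrix.conjTranspose_conjTranspose, Matrix.mul_assoc]

end Inc

variable {A : Type*} [CStarAlgebra A] [PartialOrder A] [StarOrderedRing A] {n m q : ℕ}

theorem continuous_corner : Continuous (corner q : CStarMatrix (Fin n) (Fin n) A → _) := by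
  refine continuous_pi fun i => continuous_pi fun j => ?_
  change Continuous fun a : CStarMatrix (Fin n) (Fin n) A =>
    if c : i.1 < n ∧ j.1 < n then a ⟨i.1, c.1⟩ ⟨j.1, c.2⟩ else 0
  split_ifs with c
  · exact continuous_apply_apply _ _
  · exact continuous_const

set_option backward.isDefEq.respectTransparency false in
theorem cuntz_iff (a : CStarMatrix (Fin n) (Fin n) A) (b : CStarMatrix (Fin m) (Fin m) A) :
    CuntzInf a b ↔ CuntzLE a b := by
  constructor
  · rintro ⟨q, x, hq, hx⟩
    refine ⟨fun k => CStarMatrix.ofMatrix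
      (inc A m (q k) * CStarMatrix.ofMatrix.symm (x k) * (inc A n (q k))ᴴ),
      tendsto_pi_nhds.2 fun i => tendsto_pi_nhds.2 fun j => ?_⟩
    rw [tendsto_iff_norm_sub_tendsto_zero]
    refine squeeze_zero (fun _ => norm_nonneg _) (fun k => ?_) hx
    refine le_trans (le_of_eq ?_)
      (CStarMatrix.norm_entry_le_norm (i := i.castLE (hq k).1) (j := j.castLE (hq k).1))
    congr 1
    have h1 := congrFun (congrFun (cut_conj (n := n) (x k) b) i) j
    rw [mul_incH (hq k).1, inc_mul (hq k).1, ← corner_eq] at h1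
    rw [CStarMatrix.sub_apply]
    have h2 : corner (q k) a (i.castLE (hq k).1) (j.castLE (hq k).1) = a i j := dif_pos ⟨i.2, j.2⟩
    rw [h2]
    exact congrArg (· - a i j) h1
  · rintro ⟨x, hx⟩
    refine ⟨fun _ => max n m, fun k => CStarMatrix.ofMatrix ((inc A m (max n m))ᴴ *
      CStarMatrix.ofMatrix.symm (x k) * inc A n (max n m)), fun _ => ⟨le_max_left _ _, le_max_right _ _⟩, ?_⟩
    have h1 := ((continuous_corner (q := max n m)).tendsto a).comp hx
    rw [tendsto_iff_norm_sub_tendsto_zero] at h1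
    refine h1.congr fun k => ?_
    congr 2
    rw [Function.comp_apply, corner_eq, corner_eq]
    exact (cor_conj (le_max_right n m) (x k) b).symm

theorem bound_iff (r : ℝ) : IsBound A r ↔ IsComparisonBound A r := by
  simp only [IsBound, IsComparisonBound, cuntz_iff]

theorem rc_eq (A : Type*) [CStarAlgebra A] : rc A = @radiusOfComparison A _
    (CStarAlgebra.spectralOrder A) (CStarAlgebra.spectralOrderedRing A) := by
  letI := CStarAlgebra.spectralOrder A
  letI := CStarAlgebra.spectralOrderedRing A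
  exact le_antisymm (le_iInf fun r => iInf_le_of_le ⟨r.1, (bound_iff _).2 r.2⟩ le_rfl)
    (le_iInf fun r => iInf_le_of_le ⟨r.1, (bound_iff _).1 r.2⟩ le_rfl)

theorem corner_mul (hn : n ≤ q) (a b : CStarMatrix (Fin n) (Fin n) A) :
    corner q (a * b) = corner q a * corner q b := by
  rw [corner_eq, corner_eq, corner_eq]
  exact cor_mul hn a b

theorem corner_star (a : CStarMatrix (Fin n) (Fin n) A) : corner q (star a) = star (corner q a) := by
  rw [corner_eq, corner_eq]
  exact cor_star a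

set_option backward.isDefEq.respectTransparency false in
theorem corner_nonneg (hn : n ≤ q) {a : CStarMatrix (Fin n) (Fin n) A} (ha : 0 ≤ a) :
    0 ≤ corner q a := by
  obtain ⟨s, rfl⟩ := CStarAlgebra.nonneg_iff_eq_star_mul_self.1 ha
  rw [corner_mul hn, corner_star]
  exact star_mul_self_nonneg _

theorem corner_pow (hn : n ≤ q) (a : CStarMatrix (Fin n) (Fin n) A) (k : ℕ) :
    corner q (a ^ (k + 1)) = corner q a ^ (k + 1) := by
  induction k with
  | zero => rw [zero_add, pow_one, pow_one]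
  | succ k ih => rw [pow_succ, corner_mul hn, ih, ← pow_succ]

theorem trace_corner (hn : n ≤ q) (τ : TracialState A) (a : CStarMatrix (Fin n) (Fin n) A) :
    traceEval τ (corner q a) = traceEval τ a := by
  unfold traceEval
  congr 1
  symm
  refine Finset.sum_of_injOn (Fin.castLE hn) (Fin.castLE_injective hn).injOn
    (fun _ _ => Finset.mem_univ _) (fun i _ hi => ?_) fun i _ => ?_
  · have c : ¬ (i.1 < n ∧ i.1 < n) := fun c => hi ⟨⟨i.1, c.1⟩, Finset.mem_univ _, rfl⟩
    rw [show corner q a i i = 0 from dif_neg c, map_zero]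
  · rw [show corner q a (i.castLE hn) (i.castLE hn) = a i i from dif_pos ⟨i.2, i.2⟩]

set_option backward.isDefEq.respectTransparency false in
theorem dTau_corner (hn : n ≤ q) (τ : TracialState A) {a : CStarMatrix (Fin n) (Fin n) A}
    (ha : 0 ≤ a) : dTau τ (corner q a) = dTau τ a := by
  refine tendsto_nhds_unique (P093Z.tendsto_dTau' τ (corner_nonneg hn ha))
    ((P093Z.tendsto_dTau' τ ha).congr' ?_)
  filter_upwards [eventually_ge_atTop 1] with k hk
  obtain ⟨k, rfl⟩ : ∃ l, k = l + 1 := ⟨k - 1, by omega⟩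
  have hs : IsSelfAdjoint a := IsSelfAdjoint.of_nonneg ha
  have hc : ContinuousOn (fun t : ℝ => t ^ (1 / ((k + 1 : ℕ) : ℝ))) (spectrum ℝ a) :=
    (Real.continuous_rpow_const (by positivity)).continuousOn
  have h0 : 0 ≤ cfc (fun t : ℝ => t ^ (1 / ((k + 1 : ℕ) : ℝ))) a :=
    cfc_nonneg fun t ht => Real.rpow_nonneg (spectrum_nonneg_of_nonneg ha ht) _
  have h1 : cfc (fun t : ℝ => t ^ (1 / ((k + 1 : ℕ) : ℝ))) a ^ (k + 1) = a := by
    rw [← cfc_pow _ _ _ hc hs]
    conv_rhs => rw [← cfc_id' ℝ a hs]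
    refine cfc_congr fun t ht => ?_
    rw [one_div]
    exact Real.rpow_inv_natCast_pow (spectrum_nonneg_of_nonneg ha ht) (by omega)
  rw [cfc_root hk (corner_nonneg hn h0) (by rw [← corner_pow hn, h1]), trace_corner hn]

end Vale.Agent.P093U
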