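import Vale.Agent.P093.CrossedDef
import Vale.Agent.P093.Comparison
import Vale.Agent.P093.MeanDim

/-!
# P093: the crossed product, `M_∞(A)` and the mean dimension, as in the problem
-/

open Filter Topology Vale.Agent.P093
open scoped ENNReal

namespace Vale.Agent.P093U

universe u v w

section Crossed

variable {X : Type u} [TopologicalSpace X] [CompactSpace X]

/-- A covariant pair for `h` in a unital C*-algebra `B`: a unital star homomorphism
`π : C(X) → B` and a unitary `u` with `u π(f) u* = π(f ∘ h⁻¹)`. -/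
structure IsCovariant (h : X ≃ₜ X) {B : Type v} [CStarAlgebra B] (π : C(X, ℂ) →⋆ₐ[ℂ] B)
    (u : B) : Prop where
  star_mul : star u * u = 1
  mul_star : u * star u = 1
  conj : ∀ f : C(X, ℂ), u * π f * star u = π (f.comp (h.symm : C(X, X)))

/-- `(A, π, u)` is the full crossed product: a covariant pair through which every covariant pair
factors by exactly one unital star homomorphism. -/
def IsUniversal (h : X ≃ₜ X) {A : Type v} [CStarAlgebra A] (π : C(X, ℂ) →⋆ₐ[ℂ] A) (u : A) :
    Prop :=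
  IsCovariant h π u ∧ ∀ (B : Type w) [CStarAlgebra B] (π' : C(X, ℂ) →⋆ₐ[ℂ] B) (u' : B),
    IsCovariant h π' u' → ∃! φ : A →⋆ₐ[ℂ] B, (∀ f, φ (π f) = π' f) ∧ φ u = u'

end Crossed

section Operators

/-- The Hilbert space `ℓ²(ℤ × X)`. -/
def L2 (X : Type u) : Type u := lp (fun _ : ℤ × X => ℂ) 2

noncomputable instance L2.group (X : Type u) : NormedAddCommGroup (L2 X) :=
  lp.normedAddCommGroup (E := fun _ : ℤ × X => ℂ) (p := 2)

noncomputable instance L2.inner (X : Type u) : InnerProductSpace ℂ (L2 X) :=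
  lp.instInnerProductSpace (𝕜 := ℂ) (G := fun _ : ℤ × X => ℂ)

instance L2.complete (X : Type u) : CompleteSpace (L2 X) :=
  lp.completeSpace (E := fun _ : ℤ × X => ℂ) (p := 2)

/-- The coordinate `ξ(n, x)`. -/
def L2.co {X : Type u} (ξ : L2 X) (n : ℤ) (x : X) : ℂ := Subtype.val ξ (n, x)

variable (H : Type u) [NormedAddCommGroup H] [InnerProductSpace ℂ H] [CompleteSpace H]

/-- The bounded operators on a Hilbert space. -/
def Op : Type u := H →L[ℂ] H

noncomputable instance Op.cstar : CStarAlgebra (Op H) :=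
  instCStarAlgebraContinuousLinearMapComplexIdOfCompleteSpace (E := H)

variable {H} in
/-- The vector `T ξ`. -/
def Op.app (T : Op H) (ξ : H) : H := DFunLike.coe (F := H →L[ℂ] H) T ξ

variable {B : Type u} [CStarAlgebra B]

/-- The norm closed unital star subalgebra generated by a set. -/
noncomputable def genAlg (s : Set B) : StarSubalgebra ℂ B :=
  (StarAlgebra.adjoin ℂ s).topologicalClosure

/-- The same as a type. -/
def Gen (s : Set B) : Type u := genAlg s

/-- It is a C*-algebra with the operations and the norm of `B`. -/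
noncomputable instance Gen.cstar (s : Set B) : CStarAlgebra (Gen s) :=
  StarSubalgebra.cstarAlgebra (genAlg s) (h_closed := StarSubalgebra.isClosed_topologicalClosure _)

/-- Its elements as elements of `B`. -/
def Gen.op {s : Set B} (a : Gen s) : B := Subtype.val a

variable {X : Type u} [TopologicalSpace X]

/-- `T` is the operator `(T ξ)(n, x) = f(hⁿ x) ξ(n, x)`. -/
def IsMul (h : X ≃ₜ X) (f : C(X, ℂ)) (T : Op (L2 X)) : Prop :=
  ∀ (ξ : L2 X) (n : ℤ) (x : X), (T.app ξ).co n x = f ((h ^ n) x) * ξ.co n x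

/-- `T` is the shift `(T ξ)(n, x) = ξ(n - 1, x)`. -/
def IsShift {X : Type u} (T : Op (L2 X)) : Prop :=
  ∀ (ξ : L2 X) (n : ℤ) (x : X), (T.app ξ).co n x = ξ.co (n - 1) x

/-- The reduced crossed product: the C*-algebra of operators on `ℓ²(ℤ × X)` that is generated by
the regular representation of `C(X)` and the shift. -/
def Reduced (h : X ≃ₜ X) : Type u := Gen {T : Op (L2 X) | (∃ f, IsMul h f T) ∨ IsShift T}

noncomputable instance Reduced.cstar (h : X ≃ₜ X) : CStarAlgebra (Reduced h) := Gen.cstar _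

/-- `π(f)` is the operator of multiplication by `f(hⁿ x)` and `u` is the shift. -/
def IsRegular (h : X ≃ₜ X) (π : C(X, ℂ) →⋆ₐ[ℂ] Reduced h) (u : Reduced h) : Prop :=
  (∀ f, IsMul h f (Gen.op (π f))) ∧ IsShift (Gen.op u)

/-- Isomorphic C*-algebras. -/
def Iso (A : Type v) [CStarAlgebra A] (B : Type u) [CStarAlgebra B] : Prop :=
  Nonempty (A ≃⋆ₐ[ℂ] B)

end Operators

section Comparison

variable {A : Type v} [CStarAlgebra A] [PartialOrder A] [StarOrderedRing A]

/-- The upper left corner inclusion `M_n(A) → M_q(A)`, `n ≤ q`. -/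
noncomputable def corner {n : ℕ} (q : ℕ) (a : CStarMatrix (Fin n) (Fin n) A) :
    CStarMatrix (Fin q) (Fin q) A :=
  CStarMatrix.ofMatrix fun i j => if c : i.1 < n ∧ j.1 < n then a ⟨i.1, c.1⟩ ⟨j.1, c.2⟩ else 0

/-- Cuntz subequivalence in `M_∞(A)`, for `a ∈ M_n(A)` and `b ∈ M_m(A)`: there are
`x_k ∈ M_{q_k}(A) ⊆ M_∞(A)` with `x_k* b x_k → a` in norm. -/
def CuntzInf {n m : ℕ} (a : CStarMatrix (Fin n) (Fin n) A) (b : CStarMatrix (Fin m) (Fin m) A) :
    Prop :=
  ∃ (q : ℕ → ℕ) (x : ∀ k, CStarMatrix (Fin (q k)) (Fin (q k)) A), (∀ k, n ≤ q k ∧ m ≤ q k) ∧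
    Tendsto (fun k => ‖star (x k) * corner (q k) b * x k - corner (q k) a‖) atTop (𝓝 0)

set_option backward.isDefEq.respectTransparency false in
/-- `(τ ⊗ Tr)(a^{1/m})`, the sequence whose limit is `d_τ(a)`. -/
noncomputable def rootTrace (τ : TracialState A) {n : ℕ} (a : CStarMatrix (Fin n) (Fin n) A)
    (m : ℕ) : ℝ :=
  traceEval τ (cfc (fun t : ℝ => t ^ (1 / (m : ℝ))) a)

variable (A) in
/-- `r ≥ 0` is a comparison bound for `A`. -/
def IsBound (r : ℝ) : Prop :=
  0 ≤ r ∧ ∀ (n m : ℕ) (a : CStarMatrix (Fin n) (Fin n) A) (b : CStarMatrix (Fin m) (Fin m) A),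
    0 ≤ a → 0 ≤ b → (∀ τ : TracialState A, dTau τ a + r < dTau τ b) → CuntzInf a b

end Comparison

/-- The radius of comparison `rc(A) ∈ [0,∞]` of a unital C*-algebra with its usual order. -/
noncomputable def rc (A : Type v) [CStarAlgebra A] : ℝ≥0∞ :=
  letI := CStarAlgebra.spectralOrder A
  letI := CStarAlgebra.spectralOrderedRing A
  ⨅ r : {r : ℝ // IsBound A r}, ENNReal.ofReal r.1

section MeanDimension

variable {X : Type u} [TopologicalSpace X]

/-- `lim_N D(𝒰^{[0,N)}) / N`. -/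
noncomputable def rateLim (h : X ≃ₜ X) (𝒰 : Set (Set X)) : ℝ≥0∞ :=
  limUnder atTop fun N : ℕ => (coverDim (iterCover h 𝒰 N) : ℝ≥0∞) / N

/-- The mean dimension, the supremum of these limits over all finite open covers. -/
noncomputable def mdimLim (h : X ≃ₜ X) : ℝ≥0∞ :=
  ⨆ 𝒰 : {𝒰 : Set (Set X) // IsFinOpenCover 𝒰}, rateLim h 𝒰.1

end MeanDimension

end Vale.Agent.P093U
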