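import Vale.Agent.P093.Bdl.B2
import Mathlib.Analysis.InnerProductSpace.GramMatrix

/-!
# P093: the regular representation dominates every covariant pair
-/

set_option linter.all false

open Filter Topology Vale.Agent.P093
open scoped ComplexOrder

namespace Vale.Agent.P093U

theorem exists_sq {B : Type*} [CStarAlgebra B] {b : B} (hb : IsSelfAdjoint b) :
    ∃ T : B, (‖b‖ : ℂ) • (1 : B) - b = star T * T := by
  letI := CStarAlgebra.spectralOrder B
  letI := CStarAlgebra.spectralOrderedRing B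
  have h1 := hb.le_algebraMap_norm_self
  rw [← sub_nonneg, CStarAlgebra.nonneg_iff_eq_star_mul_self] at h1
  obtain ⟨T, hT⟩ := h1
  refine ⟨T, ?_⟩
  rw [← hT, Algebra.algebraMap_eq_smul_one, ← Complex.coe_smul]

theorem count_tendsto (k : ℤ) : Tendsto (fun L : ℕ => (L : ℂ)⁻¹ *
    ∑ i : Fin L, ∑ j : Fin L, (if ((i : ℕ) : ℤ) = (j : ℕ) + k then (1 : ℂ) else 0)) atTop (𝓝 1) := by
  have h1 : ∀ L : ℕ, k.natAbs ≤ L → ∑ i : Fin L, ∑ j : Fin L,
      (if ((i : ℕ) : ℤ) = (j : ℕ) + k then (1 : ℂ) else 0) = (L : ℂ) - (k.natAbs : ℂ) := by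
    intro L hL
    have h2 : ∀ i : Fin L, ∑ j : Fin L, (if ((i : ℕ) : ℤ) = (j : ℕ) + k then (1 : ℂ) else 0) =
        if k ≤ (i : ℕ) ∧ ((i : ℕ) : ℤ) < L + k then 1 else 0 := by
      intro i
      split_ifs with h
      · rw [Finset.sum_eq_single (⟨((i : ℕ) - k).toNat, by omega⟩ : Fin L)]
        · rw [if_pos]
          simp only
          omega
        · intro j _ hj
          rw [if_neg]
          intro h3
          exact hj (Fin.ext (by simp only; omega))
        · simp
      · refine Finset.sum_eq_zero fun j _ => if_neg fun h3 => h ?_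
        have := j.2
        omega
    simp only [h2]
    rw [Fin.sum_univ_eq_sum_range (fun i : ℕ => if k ≤ (i : ℤ) ∧ (i : ℤ) < L + k then (1 : ℂ) else 0),
      Finset.sum_boole]
    have h3 : (Finset.range L).filter (fun i : ℕ => k ≤ (i : ℤ) ∧ (i : ℤ) < L + k) =
        Finset.Ico k.toNat (L - (-k).toNat) := by
      ext i
      simp only [Finset.mem_filter, Finset.mem_range, Finset.mem_Ico]
      omega
    rw [h3, Nat.card_Ico, show L - (-k).toNat - k.toNat = L - k.natAbs by omega, Nat.cast_sub hL]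
  have h4 : Tendsto (fun L : ℕ => 1 - (L : ℂ)⁻¹ * (k.natAbs : ℂ)) atTop (𝓝 (1 - 0 * k.natAbs)) :=
    tendsto_const_nhds.sub ((tendsto_inv_atTop_nhds_zero_nat (𝕜 := ℂ)).mul_const _)
  rw [zero_mul, sub_zero] at h4
  refine h4.congr' ?_
  filter_upwards [eventually_ge_atTop (k.natAbs + 1)] with L hL
  have h5 : (L : ℂ) ≠ 0 := by exact_mod_cast (by omega : L ≠ 0)
  rw [h1 L (by omega), mul_sub, inv_mul_cancel₀ h5]

variable {X : Type*} [TopologicalSpace X] [CompactSpace X] [T2Space X] {h : X ≃ₜ X}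
  {A : Type*} [CStarAlgebra A] {π : C(X, ℂ) →⋆ₐ[ℂ] A} {u : A} (hu1 : star u * u = 1) (hu2 : u * star u = 1)

/-- the powers of the unitary -/
noncomputable def W (X : Type*) [TopologicalSpace X] [CompactSpace X] {u : A}
    (hu1 : star u * u = 1) (hu2 : u * star u = 1) (k : ℤ) : A :=
  ((pairUnit X hu1 hu2 ^ k : (A × OpX X)ˣ) : A × OpX X).1

theorem W_add (k l : ℤ) : W X hu1 hu2 (k + l) = W X hu1 hu2 k * W X hu1 hu2 l := by
  unfold W
  rw [zpow_add, Units.val_mul]
  rfl

theorem W_zero : W X hu1 hu2 0 = 1 := by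
  unfold W
  rw [zpow_zero]
  rfl

theorem W_star (k : ℤ) : star (W X hu1 hu2 k) = W X hu1 hu2 (-k) :=
  congrArg Prod.fst (star_units_zpow (U := pairUnit X hu1 hu2) rfl k)

/-- the averages of the compressions converge -/
def Avg (π : C(X, ℂ) →⋆ₐ[ℂ] A) (b : A × OpX X) : Prop := ∃ β : ℤ → ℤ → C(X, ℂ),
  (∀ i j x, β i j x = inner ℂ (dvec i x : Ell2 X) (b.2 (dvec j x))) ∧
  Tendsto (fun L : ℕ => (L : ℂ)⁻¹ • ∑ i : Fin L, ∑ j : Fin L,
    W X hu1 hu2 (i : ℕ) * π (β (i : ℕ) (j : ℕ)) * W X hu1 hu2 (-(j : ℕ))) atTop (𝓝 b.1)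

variable (hcov : ∀ f : C(X, ℂ), u * π f * star u = π (f.comp (h.symm : C(X, X))))
include hcov

theorem avg_mon (f : C(X, ℂ)) (k : ℤ) : Avg hu1 hu2 π
    ((π.prod (multHom h)) f * ((pairUnit X hu1 hu2 ^ k : (A × OpX X)ˣ) : A × OpX X)) := by
  refine ⟨fun i j => if i = j + k then powComp h i f else 0, fun i j x => ?_, ?_⟩
  · change _ = inner ℂ _
      (multOp h f (((pairUnit X hu1 hu2 ^ k : (A × OpX X)ˣ) : A × OpX X).2 (dvec j x)))
    rw [pairUnit_zpow_dvec, multOp_dvec, inner_smul_right, inner_dvec_dvec]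
    beta_reduce
    split_ifs with h1
    · rw [h1, mul_one, powComp_apply]
    · rw [mul_zero]
      rfl
  · have h1 := (count_tendsto k).smul_const (π f * W X hu1 hu2 k)
    rw [one_smul] at h1
    refine h1.congr fun L => ?_
    rw [mul_smul, Finset.sum_smul]
    congr 1
    refine Finset.sum_congr rfl fun i _ => ?_
    rw [Finset.sum_smul]
    refine Finset.sum_congr rfl fun j _ => ?_
    beta_reduce
    split_ifs with h2
    · have h3 : W X hu1 hu2 (i : ℕ) * π (powComp h (i : ℕ) f) =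
          π (powComp h (-(i : ℕ)) (powComp h (i : ℕ) f)) * W X hu1 hu2 (i : ℕ) :=
        congrArg Prod.fst (cov_zpow (pair_cov hu1 hu2 hcov) (i : ℕ) (powComp h (i : ℕ) f))
      have h4 : powComp h (-(i : ℕ)) (powComp h (i : ℕ) f) = f := by
        ext x
        rw [powComp_apply, powComp_apply, ← zpow_add_apply']
        simp
      rw [one_smul, h3, h4, mul_assoc, ← W_add, h2, add_neg_cancel_comm]
    · simp

include hu1 hu2

theorem avg_of_mem {b : A × OpX X} (hb : b ∈ pairAlg h π u) : Avg hu1 hu2 π b := by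
  have hb' := mem_monSpan (U := pairUnit X hu1 hu2) (pair_cov hu1 hu2 hcov) rfl hb
  clear hb
  unfold monSpan at hb'
  induction hb' using Submodule.span_induction with
  | mem x hx =>
    obtain ⟨f, k, rfl⟩ := hx
    exact avg_mon hu1 hu2 hcov f k
  | zero => exact ⟨fun _ _ => 0, fun i j x => by simp, by simpa using tendsto_const_nhds⟩
  | add x y _ _ hx hy =>
    obtain ⟨β, h1, h2⟩ := hx
    obtain ⟨γ, h3, h4⟩ := hy
    refine ⟨fun i j => β i j + γ i j, fun i j z => ?_, (h2.add h4).congr fun L => ?_⟩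
    · rw [ContinuousMap.add_apply, h1, h3, ← inner_add_right]
      rfl
    · simp only [map_add, mul_add, add_mul, Finset.sum_add_distrib, smul_add]
  | smul c x _ hx =>
    obtain ⟨β, h1, h2⟩ := hx
    refine ⟨fun i j => c • β i j, fun i j z => ?_, (h2.const_smul c).congr fun L => ?_⟩
    · rw [ContinuousMap.smul_apply, h1, smul_eq_mul, ← inner_smul_right]
      rfl
    · simp only [map_smul, mul_smul_comm, smul_mul_assoc, ← Finset.smul_sum]
      rw [smul_comm]

set_option backward.isDefEq.respectTransparency false in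
theorem norm_le_of_mem {a : A × OpX X} (ha : a ∈ pairAlg h π u) : ‖a.1‖ ≤ ‖a.2‖ := by
  letI := CStarAlgebra.spectralOrder A
  letI := CStarAlgebra.spectralOrderedRing A
  obtain ⟨β, h1, h2⟩ := avg_of_mem hu1 hu2 hcov (mul_mem (star_mem ha) ha)
  set c : ℝ := ‖star a.2 * a.2‖ with hc
  obtain ⟨T, hT⟩ := exists_sq (IsSelfAdjoint.star_mul_self a.2)
  have h3 : ∀ L : ℕ, 0 < L → (L : ℂ)⁻¹ • ∑ i : Fin L, ∑ j : Fin L,
      W X hu1 hu2 (i : ℕ) * π (β (i : ℕ) (j : ℕ)) * W X hu1 hu2 (-(j : ℕ)) ≤ algebraMap ℝ A c := by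
    intro L hL
    have h4 := fullM_nonneg π (m := L)
      (fun i j => (if i = j then (c : ℂ) • (1 : C(X, ℂ)) else 0) - β (i : ℕ) (j : ℕ)) fun x => by
        refine (congrArg Matrix.PosSemidef ?_).mp
          (Matrix.posSemidef_gram ℂ (fun i : Fin L => T (dvec (i : ℕ) x)))
        symm
        ext i j
        have e1 : inner ℂ (T (dvec (i : ℕ) x)) (T (dvec (j : ℕ) x)) =
            inner ℂ (dvec (i : ℕ) x : Ell2 X) ((star T * T) (dvec (j : ℕ) x)) := by
          rw [ContinuousLinearMap.mul_apply, ContinuousLinearMap.star_eq_adjoint,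
            ContinuousLinearMap.adjoint_inner_right]
        rw [Matrix.gram_apply, e1, ← hT, Matrix.of_apply, ContinuousMap.sub_apply, h1,
          ContinuousLinearMap.sub_apply, inner_sub_right, ContinuousLinearMap.smul_apply,
          inner_smul_right, ContinuousLinearMap.one_apply, inner_dvec_dvec]
        congr 1
        by_cases hij : i = j
        · simp [hij, hc]
        · rw [if_neg hij, if_neg (fun e => hij (Fin.ext (by exact_mod_cast e))), mul_zero]
          rfl
    rw [CStarAlgebra.nonneg_iff_eq_star_mul_self] at h4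
    obtain ⟨S, hS⟩ := h4
    have h5 : ∀ i j : Fin L, π ((if i = j then (c : ℂ) • (1 : C(X, ℂ)) else 0) -
        β (i : ℕ) (j : ℕ)) = ∑ k, star (S k i) * S k j := fun i j => congrFun (congrFun hS i) j
    have h6 : (0 : A) ≤ ∑ k, star (∑ j : Fin L, S k j * W X hu1 hu2 (-(j : ℕ))) *
        ∑ j : Fin L, S k j * W X hu1 hu2 (-(j : ℕ)) :=
      Finset.sum_nonneg fun k _ => star_mul_self_nonneg _
    have h7 : ∑ k, star (∑ j : Fin L, S k j * W X hu1 hu2 (-(j : ℕ))) *
        ∑ j : Fin L, S k j * W X hu1 hu2 (-(j : ℕ)) = ∑ i : Fin L, ∑ j : Fin L,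
          W X hu1 hu2 (i : ℕ) * π ((if i = j then (c : ℂ) • (1 : C(X, ℂ)) else 0) -
            β (i : ℕ) (j : ℕ)) * W X hu1 hu2 (-(j : ℕ)) := by
      simp only [h5, star_sum, star_mul, W_star, neg_neg, Finset.sum_mul_sum]
      simp only [Finset.sum_mul, Finset.mul_sum, mul_assoc]
      rw [Finset.sum_comm]
      refine Finset.sum_congr rfl fun i _ => ?_
      rw [Finset.sum_comm]
    have h8 : ∑ i : Fin L, ∑ j : Fin L, W X hu1 hu2 (i : ℕ) *
        π (if i = j then (c : ℂ) • (1 : C(X, ℂ)) else 0) * W X hu1 hu2 (-(j : ℕ)) =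
        (L : ℂ) • algebraMap ℝ A c := by
      rw [Finset.sum_congr rfl (g := fun _ => algebraMap ℝ A c) fun i _ => ?_]
      · rw [Finset.sum_const, Finset.card_univ, Fintype.card_fin, Nat.cast_smul_eq_nsmul]
      · rw [Finset.sum_eq_single i (fun j _ hj => by rw [if_neg hj.symm]; simp) (by simp),
          if_pos rfl, map_smul, map_one, mul_smul_comm, smul_mul_assoc, mul_one, ← W_add,
          add_neg_cancel, W_zero, Algebra.algebraMap_eq_smul_one, Complex.coe_smul]
    rw [h7] at h6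
    simp only [map_sub, mul_sub, sub_mul, Finset.sum_sub_distrib] at h6
    rw [h8] at h6
    have h9 : (L : ℂ) ≠ 0 := by exact_mod_cast hL.ne'
    have h10 := smul_nonneg (show (0 : ℝ) ≤ (L : ℝ)⁻¹ by positivity) h6
    rw [← Complex.coe_smul, smul_sub, smul_smul, Complex.ofReal_inv, Complex.ofReal_natCast,
      inv_mul_cancel₀ h9, one_smul, sub_nonneg] at h10
    exact h10
  have h11 : star a.1 * a.1 ≤ algebraMap ℝ A c :=
    le_of_tendsto h2 ((eventually_gt_atTop 0).mono h3)
  rw [← CStarAlgebra.norm_le_iff_le_algebraMap _ (norm_nonneg _) (star_mul_self_nonneg _),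
    CStarRing.norm_star_mul_self, CStarRing.norm_star_mul_self] at h11
  nlinarith [norm_nonneg a.1, norm_nonneg a.2]

end Vale.Agent.P093U
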