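import Vale.Agent.P093U41.Defs
import Vale.Agent.P093.U.Main
import Mathlib.Analysis.Subadditive

/-!
# P093: the limits in the definition of the mean dimension exist
-/

set_option linter.all false

open Filter Topology Set Vale.Agent.P093 Vale.Agent.P093.U
open scoped ENNReal

namespace Vale.Agent.P093U

variable {X : Type*} [TopologicalSpace X] [CompactSpace X] [T2Space X] [Nonempty X]

theorem dim_add (h : X ≃ₜ X) {W : Set (Set X)} (hW : IsFinOpenCover W) (N M : ℕ) :
    coverDim (iterCover h W (N + M)) ≤ coverDim (iterCover h W N) + coverDim (iterCover h W M) := by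
  have h1 := isFinOpenCover_iterCover h hW N
  have h2 := isFinOpenCover_iterCover h hW M
  have h3 := isFinOpenCover_preimage h2 (continuous_hpow h N)
  refine (coverDim_iterCover_add_le h N M (isFinOpenCover_inter h1 h3)).trans ?_
  exact (coverDim_le_of_smallOn ((smallOn_of_coverDim h1).inter (smallOn_of_coverDim h3))).trans
    (Nat.add_le_add_left (coverDim_preimage_le h2 (continuous_hpow h N)) _)

theorem tendsto_rate (h : X ≃ₜ X) {W : Set (Set X)} (hW : IsFinOpenCover W) :
    Tendsto (fun N : ℕ => (coverDim (iterCover h W N) : ℝ≥0∞) / N) atTop (𝓝 (rateLim h W)) ∧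
      rateLim h W ≠ ∞ := by
  have h1 : Subadditive fun N : ℕ => (coverDim (iterCover h W N) : ℝ) := fun N M => by
    beta_reduce
    exact_mod_cast dim_add h hW N M
  have h2 := ENNReal.tendsto_ofReal (h1.tendsto_lim ⟨0, by
    rintro _ ⟨N, rfl⟩
    positivity⟩)
  have h3 : Tendsto (fun N : ℕ => (coverDim (iterCover h W N) : ℝ≥0∞) / N) atTop
      (𝓝 (ENNReal.ofReal h1.lim)) := by
    refine h2.congr' ?_
    filter_upwards [eventually_gt_atTop 0] with N hN
    rw [ENNReal.ofReal_div_of_pos (by exact_mod_cast hN), ENNReal.ofReal_natCast,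
      ENNReal.ofReal_natCast]
  have h4 : rateLim h W = ENNReal.ofReal h1.lim := h3.limUnder_eq
  rw [h4]
  exact ⟨h3, ENNReal.ofReal_ne_top⟩

theorem mdim_eq (h : X ≃ₜ X) : mdimLim h = meanDim h :=
  iSup_congr fun W => (tendsto_rate h W.2).1.limsup_eq.symm

end Vale.Agent.P093U
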