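import Vale.Agent.P093U41.Univ
import Vale.Agent.P093U41.Comp
import Vale.Agent.P093U41.Mean
import Vale.Agent.P093.Final.WithU
import Vale.Agent.P093.A5.Main
import Vale.Agent.P093.N.Main
import Vale.Agent.P093Z.Main

/-!
# P093: the equality for the crossed product as in the problem
-/

set_option linter.all false

open Vale.Agent.P093 TopologicalSpace

namespace Vale.Agent.P093U

universe u v

variable {X : Type u} [TopologicalSpace X] [CompactSpace X] [MetrizableSpace X] [Infinite X]
  {h : X ≃ₜ X}

theorem rc_crossed (hmin : IsMinimalHomeo h) {A : Type v} [CStarAlgebra A]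
    (hA : IsCrossedProduct h A) : rc A = mdimLim h / 2 := by
  letI := CStarAlgebra.spectralOrder A
  letI := CStarAlgebra.spectralOrderedRing A
  rw [rc_eq, mdim_eq]
  exact le_antisymm (P093Z.rc_le hmin hA)
    (Final.final_of_static_lr A5.staticThm N.Fin.partN X h hmin A hA)

theorem trace_crossed (hmin : IsMinimalHomeo h) {A : Type v} [CStarAlgebra A]
    (hA : IsCrossedProduct h A) : Nonempty (TracialState A) := by
  letI := CStarAlgebra.spectralOrder A
  letI := CStarAlgebra.spectralOrderedRing A
  obtain ⟨s⟩ := P093Z.exists_sys hmin hA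
  obtain ⟨τ, -⟩ := s.exists_trace (fun _ => Classical.arbitrary X) (fun j => j + 1) fun _ => le_rfl
  exact ⟨τ⟩

theorem exists_R (h : X ≃ₜ X) : ∃ (π : C(X, ℂ) →⋆ₐ[ℂ] Reduced h) (u : Reduced h),
    IsRegular h π u ∧ IsUniversal.{u, u, u} h π u ∧ IsUniversal.{u, u, v} h π u :=
  ⟨piR h, uR h, ⟨mul_R h, shift_R⟩, universal_R h, universal_R h⟩

end Vale.Agent.P093U
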