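import Vale.Agent.P093U41.Defs
import Vale.Agent.P093U41.Folner

/-!
# P093: the reduced crossed product is the full crossed product
-/

set_option linter.all false

open Filter Topology Vale.Agent.P093

namespace Vale.Agent.P093U

universe u v w

variable {X : Type u} [TopologicalSpace X] [CompactSpace X] [T2Space X] {h : X ≃ₜ X}

theorem dense_of {A : Type*} [CStarAlgebra A] {s : Set A}
    (H : ∀ S : StarSubalgebra ℂ A, IsClosed (S : Set A) → s ⊆ S → ∀ a, a ∈ S) :
    Dense (StarAlgebra.adjoin ℂ s : Set A) := fun a =>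
  H (StarAlgebra.adjoin ℂ s).topologicalClosure (StarSubalgebra.isClosed_topologicalClosure _)
    (fun _ hb => StarSubalgebra.le_topologicalClosure _ (StarAlgebra.subset_adjoin ℂ _ hb)) a

theorem cont {A B : Type*} [CStarAlgebra A] [CStarAlgebra B] (φ : A →⋆ₐ[ℂ] B) : Continuous φ :=
  AddMonoidHomClass.continuous_of_bound φ 1 fun a => by
    rw [one_mul]
    exact NonUnitalStarAlgHom.norm_apply_le φ a

theorem ext_of_dense {A B : Type*} [CStarAlgebra A] [CStarAlgebra B] {π : C(X, ℂ) →⋆ₐ[ℂ] A}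
    {u : A} (hd : Dense (StarAlgebra.adjoin ℂ (Set.range π ∪ {u}) : Set A)) {φ ψ : A →⋆ₐ[ℂ] B}
    (h1 : ∀ f, φ (π f) = ψ (π f)) (h2 : φ u = ψ u) : φ = ψ := by
  refine DFunLike.ext' ((cont φ).ext_on hd (cont ψ) fun a ha => ?_)
  refine StarAlgHom.adjoin_le_equalizer φ ψ ?_ ha
  rintro _ (⟨f, rfl⟩ | rfl)
  · exact h1 f
  · exact h2

theorem closed_C (h : X ≃ₜ X) : IsClosed (crossedProductAlg h : Set (OpX X)) :=
  StarSubalgebra.isClosed_topologicalClosure _

/-- homomorphisms with values in the algebra of operators -/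
noncomputable def toC {A : Type*} [CStarAlgebra A] (φ : A →⋆ₐ[ℂ] OpX X)
    (hφ : ∀ a, φ a ∈ crossedProductAlg h) : A →⋆ₐ[ℂ] CrossedProduct h :=
  φ.codRestrict (crossedProductAlg h) hφ

/-- the inclusion -/
noncomputable def opC (h : X ≃ₜ X) : CrossedProduct h →⋆ₐ[ℂ] OpX X := (crossedProductAlg h).subtype

/-- a closed subalgebra which contains the generators is everything -/
theorem eq_top_C (S : StarSubalgebra ℂ (CrossedProduct h))
    (hS : IsClosed (S : Set (CrossedProduct h))) (h1 : ∀ f, piHom h f ∈ S) (h2 : uElt h ∈ S)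
    (a : CrossedProduct h) : a ∈ S := by
  have h3 : IsClosed (S.map (opC h) : Set (OpX X)) :=
    (closed_C h).isClosedEmbedding_subtypeVal.isClosedMap _ hS
  have h4 : crossedProductAlg h ≤ S.map (opC h) := by
    refine StarSubalgebra.topologicalClosure_minimal (StarAlgebra.adjoin_le ?_) h3
    rintro T (⟨f, rfl⟩ | rfl)
    · exact ⟨_, h1 f, rfl⟩
    · exact ⟨_, h2, rfl⟩
  obtain ⟨b, hb, e⟩ := h4 a.2
  obtain rfl : b = a := Subtype.ext e
  exact hb

theorem exists_lift0 {B : Type w} [CStarAlgebra B] {π : C(X, ℂ) →⋆ₐ[ℂ] B} {u : B}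
    (c : IsCovariant h π u) :
    ∃ φ : CrossedProduct h →⋆ₐ[ℂ] B, (∀ f, φ (piHom h f) = π f) ∧ φ (uElt h) = u := by
  have hcl : ∀ {P : Set (B × OpX X)}, IsClosed P → (∀ b ∈ pairAlg h π u, b ∈ P) →
      ∀ b ∈ pairAlgC h π u, b ∈ P := fun hP h1 b hb => closure_minimal h1 hP hb
  have hmem : ∀ b : PairC h π u, sndHom h π u b ∈ crossedProductAlg h := fun b => by
    refine hcl (P := {b | b.2 ∈ (crossedProductAlg h : Set (OpX X))})
      ((closed_C h).preimage continuous_snd) (fun a ha => ?_) _ b.2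
    have h1 : pairAlg h π u ≤ (crossedProductAlg h).comap (StarAlgHom.snd ℂ B (OpX X)) := by
      refine StarAlgebra.adjoin_le ?_
      rintro a (⟨f, rfl⟩ | rfl)
      · exact (piHom h f).2
      · exact (uElt h).2
    exact h1 ha
  let s : PairC h π u →⋆ₐ[ℂ] CrossedProduct h := toC (sndHom h π u) hmem
  have hinj : Function.Injective s := by
    rw [injective_iff_map_eq_zero]
    intro b hb
    have h2 : b.val.2 = 0 := congrArg Subtype.val hb
    have h3 : ‖b.val.1‖ ≤ ‖b.val.2‖ := hcl (P := {b | ‖b.1‖ ≤ ‖b.2‖})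
      (isClosed_le (by fun_prop) (by fun_prop)) (fun a ha => norm_le_of_mem c.1 c.2 c.3 ha) _ b.2
    rw [h2, norm_zero, norm_le_zero_iff] at h3
    exact Subtype.ext (Prod.ext h3 h2)
  have hiso : Isometry s :=
    AddMonoidHomClass.isometry_of_norm _ fun b => NonUnitalStarAlgHom.norm_map s hinj b
  have hsur : Function.Surjective s := fun a =>
    eq_top_C s.range hiso.isClosedEmbedding.isClosed_range
      (fun f => ⟨PairC.mk (π f, multOp h f) (pair_mem_closure f), rfl⟩)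
      ⟨PairC.mk (u, shiftOp X) pair_u_mem_closure, rfl⟩ a
  let e : PairC h π u ≃⋆ₐ[ℂ] CrossedProduct h := StarAlgEquiv.ofBijective s ⟨hinj, hsur⟩
  refine ⟨(fstHom h π u).comp (e.symm : CrossedProduct h →⋆ₐ[ℂ] PairC h π u), fun f => ?_, ?_⟩
  · have h1 : e.symm (piHom h f) = PairC.mk (π f, multOp h f) (pair_mem_closure f) :=
      (EquivLike.injective e) (StarAlgEquiv.apply_symm_apply e _)
    change fstHom h π u (e.symm (piHom h f)) = _
    rw [h1]
    rfl
  · have h1 : e.symm (uElt h) = PairC.mk (u, shiftOp X) pair_u_mem_closure :=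
      (EquivLike.injective e) (StarAlgEquiv.apply_symm_apply e _)
    change fstHom h π u (e.symm (uElt h)) = _
    rw [h1]
    rfl

section Gen

variable {B : Type u} [CStarAlgebra B] {s : Set B}

/-- the inclusion -/
noncomputable def incl (s : Set B) : Gen s →⋆ₐ[ℂ] B := (genAlg s).subtype

theorem incl_inj : Function.Injective (incl s) := Subtype.val_injective

theorem gen_mem {b : B} (hb : b ∈ s) : b ∈ genAlg s :=
  StarSubalgebra.le_topologicalClosure _ (StarAlgebra.subset_adjoin ℂ _ hb)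

/-- homomorphisms with values in the generated algebra -/
noncomputable def cod {A : Type*} [CStarAlgebra A] (φ : A →⋆ₐ[ℂ] B) (hφ : ∀ a, φ a ∈ s) :
    A →⋆ₐ[ℂ] Gen s := φ.codRestrict (genAlg s) fun a => gen_mem (hφ a)

/-- generators -/
def elt (b : B) (hb : b ∈ s) : Gen s := (⟨b, gen_mem hb⟩ : genAlg s)

theorem gen_le {S : StarSubalgebra ℂ B} (hS : IsClosed (S : Set B)) (h : s ⊆ S) (a : Gen s) :
    incl s a ∈ S :=
  StarSubalgebra.topologicalClosure_minimal (StarAlgebra.adjoin_le h) hS a.2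

theorem gen_top (S : StarSubalgebra ℂ (Gen s)) (hS : IsClosed (S : Set (Gen s)))
    (h1 : ∀ a, incl s a ∈ s → a ∈ S) (a : Gen s) : a ∈ S := by
  have h3 : IsClosed (S.map (incl s) : Set B) :=
    (StarSubalgebra.isClosed_topologicalClosure _).isClosedEmbedding_subtypeVal.isClosedMap _ hS
  obtain ⟨b, hb, e⟩ := gen_le h3 (fun b hb => ⟨elt b hb, h1 _ hb, rfl⟩) a
  exact incl_inj e ▸ hb

end Gen

/-- the identity -/
noncomputable def jj (X : Type u) : OpX X →⋆ₐ[ℂ] Op (L2 X) where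
  toFun T := T
  map_one' := rfl
  map_mul' _ _ := rfl
  map_zero' := rfl
  map_add' _ _ := rfl
  commutes' _ := rfl
  map_star' _ := rfl

/-- the identity -/
noncomputable def kk (X : Type u) : Op (L2 X) →⋆ₐ[ℂ] OpX X where
  toFun T := T
  map_one' := rfl
  map_mul' _ _ := rfl
  map_zero' := rfl
  map_add' _ _ := rfl
  commutes' _ := rfl
  map_star' _ := rfl

theorem mul_R (h : X ≃ₜ X) (f : C(X, ℂ)) : IsMul h f (jj X (multOp h f)) :=
  fun v n x => multOp_apply h f v (n, x)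

theorem shift_R : IsShift (jj X (shiftOp X)) := fun _ _ _ => rfl

theorem eq_mul {f : C(X, ℂ)} {T : Op (L2 X)} (hT : IsMul h f T) : kk X T = multOp h f :=
  ell2_ext fun v i => (hT v i.1 i.2).trans (multOp_apply h f v i).symm

theorem eq_shift {T : Op (L2 X)} (hT : IsShift T) : kk X T = shiftOp X :=
  ell2_ext fun v i => hT v i.1 i.2

/-- the regular representation -/
noncomputable def piR (h : X ≃ₜ X) : C(X, ℂ) →⋆ₐ[ℂ] Reduced h :=
  cod ((jj X).comp (multHom h)) fun f => Or.inl ⟨f, mul_R h f⟩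

/-- the shift -/
noncomputable def uR (h : X ≃ₜ X) : Reduced h := elt (jj X (shiftOp X)) (Or.inr shift_R)

/-- the operators -/
noncomputable def opR (h : X ≃ₜ X) : Reduced h →⋆ₐ[ℂ] OpX X := (kk X).comp (incl _)

theorem opR_inj : Function.Injective (opR h) := fun _ _ e => incl_inj e

theorem opR_pi (f : C(X, ℂ)) : opR h (piR h f) = multOp h f := rfl

theorem opR_u : opR h (uR h) = shiftOp X := rfl

theorem cov_R (h : X ≃ₜ X) : IsCovariant h (piR h) (uR h) := by
  refine ⟨opR_inj ?_, opR_inj ?_, fun f => opR_inj ?_⟩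
  · rw [map_mul, map_star, map_one, opR_u, shift_star_mul]
  · rw [map_mul, map_star, map_one, opR_u, shift_mul_star]
  have h1 : shiftOp X * multOp h f = multOp h (f.comp (h.symm : C(X, X))) * shiftOp X := by
    have h2 := congrArg toOp (u_pi h (f.comp (h.symm : C(X, X))))
    have h3 : (f.comp (h.symm : C(X, X))).comp (h : C(X, X)) = f := by
      ext x
      simp
    rw [h3] at h2
    exact h2
  rw [map_mul, map_mul, map_star, opR_u, opR_pi, opR_pi, h1, mul_assoc, shift_mul_star, mul_one]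

theorem piR_injective (h : X ≃ₜ X) : Function.Injective (piR h) := by
  intro f g e
  ext x
  have h1 : multOp h f = multOp h g := congrArg (opR h) e
  have h2 := congrArg (fun T : OpX X => inner ℂ (dvec 0 x : Ell2 X) (T (dvec 0 x))) h1
  simpa only [multOp_dvec, inner_smul_right, inner_dvec_dvec, if_true, mul_one, zpow_zero,
    Homeomorph.one_apply] using h2

theorem dense_R (h : X ≃ₜ X) :
    Dense (StarAlgebra.adjoin ℂ (Set.range (piR h) ∪ {uR h}) : Set (Reduced h)) := by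
  refine dense_of fun S hS hs => gen_top S hS ?_
  rintro a (⟨f, hf⟩ | ha)
  · exact hs (Or.inl ⟨f, opR_inj (eq_mul hf).symm⟩)
  · exact hs (Or.inr (opR_inj (eq_shift ha)))

theorem crossed_R (h : X ≃ₜ X) : IsCrossedProduct h (Reduced h) :=
  ⟨piR h, uR h, piR_injective h, (cov_R h).1, (cov_R h).2, (cov_R h).3, dense_R h⟩

theorem opR_mem (a : Reduced h) : opR h a ∈ crossedProductAlg h := by
  refine gen_le (S := (crossedProductAlg h).comap (kk X)) ((closed_C h).preimage (cont (kk X))) ?_ a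
  rintro T (⟨f, hf⟩ | hT)
  · change kk X T ∈ crossedProductAlg h
    rw [eq_mul hf]
    exact multOp_mem h f
  · change kk X T ∈ crossedProductAlg h
    rw [eq_shift hT]
    exact shiftOp_mem h

theorem exists_lift {B : Type w} [CStarAlgebra B] {π : C(X, ℂ) →⋆ₐ[ℂ] B} {u : B}
    (c : IsCovariant h π u) :
    ∃ φ : Reduced h →⋆ₐ[ℂ] B, (∀ f, φ (piR h f) = π f) ∧ φ (uR h) = u := by
  obtain ⟨φ, h1, h2⟩ := exists_lift0 c
  exact ⟨φ.comp (toC (opR h) opR_mem), h1, h2⟩

theorem universal_R (h : X ≃ₜ X) : IsUniversal.{u, u, w} h (piR h) (uR h) := by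
  refine ⟨cov_R h, fun B _ π u c => ?_⟩
  obtain ⟨φ, h1, h2⟩ := exists_lift c
  exact ⟨φ, ⟨h1, h2⟩, fun ψ hψ => ext_of_dense (dense_R h) (fun f => (hψ.1 f).trans (h1 f).symm)
    (hψ.2.trans h2.symm)⟩

/-- an isomorphism from two inverse homomorphisms -/
theorem equiv_of {A B : Type*} [CStarAlgebra A] [CStarAlgebra B] (φ : A →⋆ₐ[ℂ] B) (ψ : B →⋆ₐ[ℂ] A)
    (h1 : ψ.comp φ = StarAlgHom.id ℂ A) (h2 : φ.comp ψ = StarAlgHom.id ℂ B) :
    Nonempty (A ≃⋆ₐ[ℂ] B) :=
  ⟨StarAlgEquiv.ofBijective φ ⟨Function.LeftInverse.injective (g := ψ) (DFunLike.congr_fun h1),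
    Function.RightInverse.surjective (g := ψ) (DFunLike.congr_fun h2)⟩⟩

theorem equiv_of_universal {A : Type u} [CStarAlgebra A] {π : C(X, ℂ) →⋆ₐ[ℂ] A} {u : A}
    (c : IsUniversal.{u, u, u} h π u) : Nonempty (A ≃⋆ₐ[ℂ] Reduced h) := by
  obtain ⟨φ, ⟨h1, h2⟩, -⟩ := c.2 _ _ _ (cov_R h)
  obtain ⟨ψ, h3, h4⟩ := exists_lift c.1
  refine equiv_of φ ψ ((c.2 A π u c.1).unique ⟨fun f => ?_, ?_⟩ ⟨fun _ => rfl, rfl⟩)
    (ext_of_dense (dense_R h) (fun f => ?_) ?_)
  · rw [StarAlgHom.comp_apply, h1, h3]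
  · rw [StarAlgHom.comp_apply, h2, h4]
  · rw [StarAlgHom.comp_apply, h3, h1]
    rfl
  · rw [StarAlgHom.comp_apply, h4, h2]
    rfl

theorem crossed_of_equiv {A : Type v} [CStarAlgebra A] (e : A ≃⋆ₐ[ℂ] Reduced h) :
    IsCrossedProduct h A := by
  let φ : Reduced h →⋆ₐ[ℂ] A := e.symm
  have hs : Function.Surjective φ := EquivLike.surjective e.symm
  refine ⟨φ.comp (piR h), φ (uR h), (EquivLike.injective e.symm).comp (piR_injective h), ?_, ?_,
    fun f => ?_, ?_⟩
  · rw [← map_star, ← map_mul, (cov_R h).1, map_one]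
  · rw [← map_star, ← map_mul, (cov_R h).2, map_one]
  · rw [StarAlgHom.comp_apply, ← map_star, ← map_mul, ← map_mul, (cov_R h).3]
    rfl
  · refine (hs.denseRange.dense_image (cont φ) (dense_R h)).mono ?_
    rintro _ ⟨a, ha, rfl⟩
    have h1 : StarAlgebra.adjoin ℂ (Set.range (piR h) ∪ {uR h}) ≤ (StarAlgebra.adjoin ℂ
        (Set.range (φ.comp (piR h)) ∪ {φ (uR h)})).comap φ := by
      refine StarAlgebra.adjoin_le ?_
      rintro _ (⟨f, rfl⟩ | rfl)
      · exact StarAlgebra.subset_adjoin ℂ _ (Or.inl ⟨f, rfl⟩)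
      · exact StarAlgebra.subset_adjoin ℂ _ (Or.inr rfl)
    exact h1 ha

theorem equiv_of_crossed [Infinite X] (hmin : IsMinimalHomeo h) {A : Type v} [CStarAlgebra A]
    (hA : IsCrossedProduct h A) : Nonempty (A ≃⋆ₐ[ℂ] Reduced h) := by
  obtain ⟨π, u, hπ, hu1, hu2, hcov, hd⟩ := hA
  have hfree : ∀ (k : ℤ) (x : X), k ≠ 0 → (h ^ k) x ≠ x := by
    intro k x hk hx
    rcases lt_or_gt_of_ne hk with h1 | h1
    · refine not_periodic h hmin x (n := -k) (by omega) ?_
      conv_lhs => rw [← hx]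
      rw [← zpow_add_apply']
      simp
    · exact not_periodic h hmin x h1 hx
  obtain ⟨Λ, h1, h2⟩ := exists_lam hfree hπ hu1 hu2 hcov hd
  obtain ⟨ι, i1, i2⟩ := exists_lift0 (cov_R h)
  obtain ⟨ψ, h3, h4⟩ := exists_lift (h := h) ⟨hu1, hu2, hcov⟩
  have h5 : ∀ f, (ι.comp Λ) (π f) = piR h f := fun f => by
    rw [StarAlgHom.comp_apply, h1, i1]
  have h6 : (ι.comp Λ) u = uR h := by
    rw [StarAlgHom.comp_apply, h2, i2]
  refine equiv_of (ι.comp Λ) ψ (ext_of_dense hd (fun f => ?_) ?_)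
    (ext_of_dense (dense_R h) (fun f => ?_) ?_)
  · rw [StarAlgHom.comp_apply, h5, h3]
    rfl
  · rw [StarAlgHom.comp_apply, h6, h4]
    rfl
  · rw [StarAlgHom.comp_apply, h3, h5]
    rfl
  · rw [StarAlgHom.comp_apply, h4, h6]
    rfl

end Vale.Agent.P093U
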